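import Vale.Agent.P165.Tree.Final

/-!
# P165: `p_c < p_u` when a group with a nonabelian free quotient acts freely and cocompactly
-/

namespace Vale.Agent.Results.P165.FreeQuotientNonuniqueness

open Vale.Agent.P165

universe u v

/-- If a group that maps onto the free group of rank two acts freely by automorphisms, with
finitely many orbits of vertices, on a connected locally finite graph, then `p_c < p_u`.  In
particular this holds for all Cayley graphs of all groups with a finite index subgroup mapping
onto the free group of rank two. -/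
theorem result :
    (∀ (Γ : Type u) [Group Γ] (V : Type v) [MulAction Γ V] (G : SimpleGraph V),
      G.Connected → (∀ x, (G.neighborSet x).Finite) →
      (∀ (γ : Γ) (x y : V), G.Adj (γ • x) (γ • y) ↔ G.Adj x y) →
      (∀ (γ : Γ) (x : V), γ • x = x → γ = 1) →
      (∃ T : Finset V, ∀ x : V, ∃ γ : Γ, ∃ t ∈ T, γ • t = x) →
      (∃ φ : Γ →* FreeGroup (Fin 2), Function.Surjective φ) →
        pCritical G < pUniqueness G) ∧
    (∀ (Γ : Type u) [Group Γ] (s : Finset Γ), Subgroup.closure (s : Set Γ) = ⊤ →
      (∃ H : Subgroup Γ, H.FiniteIndex ∧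
        ∃ φ : H →* FreeGroup (Fin 2), Function.Surjective φ) →
        pCritical (SimpleGraph.mulCayley (s : Set Γ)) <
          pUniqueness (SimpleGraph.mulCayley (s : Set Γ))) := by
  refine ⟨fun Γ _ V _ G hc hf ha hfree horb ⟨φ, hφ⟩ => ?_, fun Γ _ s hs ⟨H, hH, φ, hφ⟩ => ?_⟩
  · exact Tree.main_action G hc hf ha hfree horb φ hφ
  · exact Tree.main_cayley s hs H φ hφ

end Vale.Agent.Results.P165.FreeQuotientNonuniqueness
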