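import Vale.Agent.P165.General.Main

/-!
# P165: nonuniqueness at large degree with a spectral gap, no symmetry assumed
-/

namespace Vale.Agent.Results.P165.HighDegreeGeneral

open Vale.Agent.P165 Vale.Agent.P165.General

/-- For `r < 1`, `C` and `ε > 0` there is `D` such that an infinite connected locally finite
graph with all degrees in `[d, C * d]`, `d ≥ D`, and adjacency norm at most `r * d` satisfies
`p_c ≤ (1 + ε) / d` and `p_c < p_u`. -/
theorem result (r : ℝ) (hr : r < 1) (C : ℝ) (ε : ℝ) (hε : 0 < ε) :
    ∃ D : ℕ, ∀ (V : Type*) (G : SimpleGraph V) [G.LocallyFinite] (d : ℕ),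
      Infinite V → G.Connected → D ≤ d → (∀ x, d ≤ G.degree x) →
      (∀ x, (G.degree x : ℝ) ≤ C * d) → AdjacencyNormLE G (r * d) →
        pCritical G ≤ (1 + ε) / d ∧ pCritical G < pUniqueness G :=
  separation r hr C ε hε

end Vale.Agent.Results.P165.HighDegreeGeneral
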